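import Vale.Agent.P252MN.Radial

/-!
The mass bound with weight `det ^ θ` in every dimension, with instances for `4 ≤ n ≤ 9`.
-/

open Set MeasureTheory

namespace Vale.Agent.P252MN

open Vale.Agent.P252G (Sol dt MassSpec)

/-- The mass bound. -/
theorem massSpec {n M e : ℕ} {θ : ℝ} (hn : 1 ≤ n) (hM : 2 ≤ M) (hC : MassCond n M e θ) :
    MassSpec n θ M := by
  obtain ⟨N, δ, hN, h0, h1, hr⟩ := radial hn hM hC
  obtain ⟨-, hg, hθ, -⟩ := hC
  have hθ0 : 0 ≤ θ := by
    have : 0 ≤ 1 / ((n : ℝ) + 2) := by positivity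
    simp only [gap] at hg
    linarith
  refine ⟨N * ((8 * ((n : ℝ) + 1)) ^ n / δ ^ n + 1), fun P h hh => ?_⟩
  obtain ⟨c, hc, huc, hb⟩ := P.inner_bound M hθ0 hθ hh h0 h1
  refine (hr P h hh c hc huc).trans ((mul_le_mul_of_nonneg_left hb hN).trans (le_of_eq ?_))
  ring

/-- The cutoff exponent may be raised. -/
theorem massSpec_mono {n M : ℕ} {θ : ℝ} (k : ℕ) (hM : MassSpec n θ M) : MassSpec n θ (M + k) := by
  obtain ⟨N, hN⟩ := hM
  refine ⟨N, fun P h hh => ?_⟩
  have ion : ∀ k : ℕ, IntegrableOn (fun x => P.cut h x ^ k * dt P.u x ^ θ) (P.sec h) := fun k =>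
    (integrableOn_csec P (continuousOn_mass P k θ h) h).mono_set (P.sec_subset_csec h)
  refine (setIntegral_mono_on (ion _) ((ion M).const_mul (h ^ k)) (P.measurableSet_sec h)
    fun x hx => ?_).trans ?_
  · rw [pow_add, mul_comm (P.cut h x ^ M), mul_assoc]
    exact mul_le_mul_of_nonneg_right (pow_le_pow_left₀ (P.cut_nonneg hx) (P.cut_le hx) k)
      (mul_nonneg (pow_nonneg (P.cut_nonneg hx) _) (dp_pos P θ (P.sec_subset h hx)).le)
  · rw [integral_const_mul]
    refine (mul_le_mul_of_nonneg_left (hN P h hh) (by positivity)).trans (le_of_eq ?_)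
    ring

theorem massSpec_four : MassSpec 4 (1 / 2) 15 :=
  massSpec (e := 3) (by norm_num) (by norm_num) (by norm_num [MassCond, lam, bmax, gap])

theorem massSpec_five : MassSpec 5 (1 / 2) 20 :=
  massSpec (e := 5) (by norm_num) (by norm_num) (by norm_num [MassCond, lam, bmax, gap])

theorem massSpec_six : MassSpec 6 (1 / 2) 30 :=
  massSpec (e := 8) (by norm_num) (by norm_num) (by norm_num [MassCond, lam, bmax, gap])

theorem massSpec_seven : MassSpec 7 (1 / 2) 50 :=
  massSpec (e := 13) (by norm_num) (by norm_num) (by norm_num [MassCond, lam, bmax, gap])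

theorem massSpec_eight : MassSpec 8 (2 / 5) 50 :=
  massSpec (e := 12) (by norm_num) (by norm_num) (by norm_num [MassCond, lam, bmax, gap])

theorem massSpec_nine : MassSpec 9 (3 / 10) 30 :=
  massSpec (e := 7) (by norm_num) (by norm_num) (by norm_num [MassCond, lam, bmax, gap])

end Vale.Agent.P252MN
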