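import Mathlib

/-!
Integration in polar coordinates about a point of `ℝ^(m+1)`.
-/

open Set MeasureTheory Metric Measure

namespace Vale.Agent.P252MN

variable {m : ℕ}

/-- The unit sphere. -/
abbrev Sph (m : ℕ) := sphere (0 : EuclideanSpace ℝ (Fin (m + 1))) 1

/-- The surface measure. -/
noncomputable abbrev sph (m : ℕ) : Measure (Sph m) := (volume : Measure (EuclideanSpace ℝ (Fin (m + 1)))).toSphere

/-- The integral of `G` along the ray from `c` in direction `θ`, with weight `r^m`. -/
noncomputable def ray (c : EuclideanSpace ℝ (Fin (m + 1))) (G : EuclideanSpace ℝ (Fin (m + 1)) → ℝ)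
    (θ : Sph m) : ℝ :=
  ∫ r in Ioi (0 : ℝ), r ^ m * G (c + r • (θ : EuclideanSpace ℝ (Fin (m + 1))))

theorem polar (c : EuclideanSpace ℝ (Fin (m + 1))) {G : EuclideanSpace ℝ (Fin (m + 1)) → ℝ}
    (hG : Integrable G) : Integrable (ray c G) (sph m) ∧ (∫ θ, ray c G θ ∂(sph m)) = ∫ x, G x := by
  let E := EuclideanSpace ℝ (Fin (m + 1))
  set F := fun x : E => G (c + x) with hF
  have hFi : Integrable F := hG.comp_add_left c
  have hmp : MeasurePreserving (homeomorphUnitSphereProd E) ((volume : Measure E).comap (↑))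
      ((sph m).prod (volumeIoiPow m)) := by
    have := (volume : Measure E).measurePreserving_homeomorphUnitSphereProd
    have hd : Module.finrank ℝ E - 1 = m := by simp [E]
    rw [hd] at this
    exact this
  set P : Sph m × Ioi (0 : ℝ) → ℝ := fun p => F (p.2.1 • (p.1 : E)) with hP
  have hPe : ∀ x : ({(0 : E)}ᶜ : Set E), P (homeomorphUnitSphereProd E x) = F x.1 := by
    intro x
    simp only [hP, homeomorphUnitSphereProd_apply_snd_coe, homeomorphUnitSphereProd_apply_fst_coe]
    rw [smul_smul, mul_inv_cancel₀ (norm_ne_zero_iff.2 x.2), one_smul]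
  have h0 : Integrable (fun x : ({(0 : E)}ᶜ : Set E) => F x.1) ((volume : Measure E).comap (↑)) :=
    (integrableOn_iff_comap_subtypeVal (measurableSet_singleton _).compl).1 hFi.integrableOn
  have hPi : Integrable P ((sph m).prod (volumeIoiPow m)) := by
    rw [← hmp.integrable_comp_emb (Homeomorph.measurableEmbedding _)]
    exact h0.congr (Filter.Eventually.of_forall fun x => (hPe x).symm)
  have hray : ∀ θ : Sph m, (∫ r, P (θ, r) ∂(volumeIoiPow m)) = ray c G θ := by
    intro θ
    simp only [volumeIoiPow, ENNReal.ofReal, ray]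
    rw [integral_withDensity_eq_integral_smul,
      integral_subtype_comap measurableSet_Ioi
        fun a : ℝ => Real.toNNReal (a ^ m) • F (a • (θ : E))]
    · refine setIntegral_congr_fun measurableSet_Ioi fun r hr => ?_
      simp only [hF, NNReal.smul_def, smul_eq_mul, Real.coe_toNNReal _ (pow_nonneg (le_of_lt hr) m)]
    · exact (measurable_subtype_coe.pow_const _).real_toNNReal
  refine ⟨hPi.integral_prod_left.congr (Filter.Eventually.of_forall hray), ?_⟩
  calc (∫ θ, ray c G θ ∂(sph m)) = ∫ θ, (∫ r, P (θ, r) ∂(volumeIoiPow m)) ∂(sph m) := by simp only [hray]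
    _ = ∫ p, P p ∂((sph m).prod (volumeIoiPow m)) := (integral_prod P hPi).symm
    _ = ∫ x : ({(0 : E)}ᶜ : Set E), P (homeomorphUnitSphereProd E x) ∂((volume : Measure E).comap (↑)) :=
        (hmp.integral_comp (Homeomorph.measurableEmbedding _) P).symm
    _ = ∫ x : ({(0 : E)}ᶜ : Set E), F x.1 ∂((volume : Measure E).comap (↑)) := by simp only [hPe]
    _ = ∫ x, F x := by
        rw [integral_subtype_comap (measurableSet_singleton _).compl F, restrict_compl_singleton]
    _ = ∫ x, G x := integral_add_left_eq_self G c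

end Vale.Agent.P252MN
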