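import Vale.Agent.P252G.Geom
import Vale.Agent.P252MN.Identities
import Vale.Agent.P252M.OneDim
import Vale.Agent.P252MN.Polar

/-!
The radial half of the mass bound with weight `det ^ θ` in every dimension: the mass of a
section is carried by a shrunk section.
-/

open Set MeasureTheory Metric Matrix Finset Filter Topology

namespace Vale.Agent.P252MN

open Vale.Agent.P252 (hessian)
open Vale.Agent.P252B (V pd fderiv_apply_sum convex_comb_le vec_eq_sum contDiffOn_pd)
open Vale.Agent.P252G (Sol dt)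
open Vale.Agent.P252M (poincare)

lemma sq_integral_mul_le {a b : ℝ} (hab : a ≤ b) {w f : ℝ → ℝ} (hw : ContinuousOn w (Icc a b))
    (hf : ContinuousOn f (Icc a b)) (h0 : ∀ r ∈ Icc a b, 0 ≤ w r) :
    (∫ r in a..b, w r * f r) ^ 2 ≤ (∫ r in a..b, w r) * ∫ r in a..b, w r * f r ^ 2 := by
  have int : ∀ {F : ℝ → ℝ}, ContinuousOn F (Icc a b) → IntervalIntegrable F volume a b :=
    fun hF => hF.intervalIntegrable_of_Icc hab
  have key : ∀ s : ℝ, 0 ≤ (∫ r in a..b, w r) * (s * s) + (-2 * ∫ r in a..b, w r * f r) * s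
      + ∫ r in a..b, w r * f r ^ 2 := by
    intro s
    have h := intervalIntegral.integral_nonneg hab (f := fun r => w r * (f r - s) ^ 2) (μ := volume)
      fun r hr => mul_nonneg (h0 r hr) (sq_nonneg _)
    rw [show (fun r => w r * (f r - s) ^ 2) = fun r => w r * f r ^ 2 - 2 * s * (w r * f r)
        + s * s * w r from funext fun r => by ring,
      intervalIntegral.integral_add (f := fun r => w r * f r ^ 2 - 2 * s * (w r * f r))
        (g := fun r => s * s * w r) ((int (hw.mul (hf.pow 2))).sub ((int (hw.mul hf)).const_mul _))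
        ((int hw).const_mul _),
      intervalIntegral.integral_sub (f := fun r => w r * f r ^ 2) (g := fun r => 2 * s * (w r * f r))
        (int (hw.mul (hf.pow 2))) ((int (hw.mul hf)).const_mul _),
      intervalIntegral.integral_const_mul, intervalIntegral.integral_const_mul] at h
    linarith
  have := discrim_le_zero key
  simp only [discrim] at this
  linarith

variable {n : ℕ} (P : Sol n)

/-- Cauchy–Schwarz for the Hessian and its inverse. -/
lemma sq_apply_le {x : V n} (hx : x ∈ P.Ω) (g : V n → ℝ) (d : V n) :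
    (fderiv ℝ g x d) ^ 2 ≤ fderiv ℝ (fderiv ℝ P.u) x d d *
      (cdot P (fun i => pd g i) (fun i => pd g i) x / dt P.u x) := by
  set H := hessian P.u x with hH
  set p : Fin n → ℝ := fun i => pd g i x with hp
  set v : Fin n → ℝ := WithLp.ofLp d with hv
  have hu : IsUnit H.det := isUnit_iff_ne_zero.2 (P.posDef hx).det_pos.ne'
  have e1 : fderiv ℝ g x d = v ⬝ᵥ p := fderiv_apply_sum g x d
  have e2 : fderiv ℝ (fderiv ℝ P.u) x d d = v ⬝ᵥ (H *ᵥ v) := by
    conv_lhs => rw [vec_eq_sum d]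
    simp [map_sum, hH, hessian, dotProduct, mulVec, Finset.mul_sum, hv]
    refine Finset.sum_comm.trans (Finset.sum_congr rfl fun i _ => Finset.sum_congr rfl fun j _ => ?_)
    ring
  have e3 : cdot P (fun i => pd g i) (fun i => pd g i) x / dt P.u x = p ⬝ᵥ (H⁻¹ *ᵥ p) := by
    rw [div_eq_iff (P.dt_pos hx).ne']
    simp only [cdot, cof, adj_eq P hx, Matrix.smul_apply, smul_eq_mul, dotProduct, mulVec,
      Finset.mul_sum, Finset.sum_mul, hp, hH]
    exact Finset.sum_congr rfl fun i _ => Finset.sum_congr rfl fun j _ => by ring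
  have hsym : Hᵀ = H := by
    simpa [Matrix.conjTranspose_eq_transpose_of_trivial] using (P.posDef hx).isHermitian.eq
  have key : ∀ s : ℝ, 0 ≤ p ⬝ᵥ (H⁻¹ *ᵥ p) * (s * s) + (-2 * (v ⬝ᵥ p)) * s + v ⬝ᵥ (H *ᵥ v) := by
    intro s
    have h := (P.posDef hx).posSemidef.dotProduct_mulVec_nonneg (v - s • (H⁻¹ *ᵥ p))
    have h1 : H *ᵥ (H⁻¹ *ᵥ p) = p := by
      rw [Matrix.mulVec_mulVec, Matrix.mul_nonsing_inv _ hu, Matrix.one_mulVec]
    have h2 : (H⁻¹ *ᵥ p) ⬝ᵥ (H *ᵥ v) = p ⬝ᵥ v := by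
      rw [dotProduct_mulVec, ← Matrix.mulVec_transpose, hsym, h1]
    simp only [star_trivial, ← hH, Matrix.mulVec_sub, Matrix.mulVec_smul, h1, sub_dotProduct,
      dotProduct_sub, smul_dotProduct, dotProduct_smul, h2, smul_eq_mul] at h
    rw [dotProduct_comm p v, dotProduct_comm (H⁻¹ *ᵥ p) p] at h
    linarith
  have := discrim_le_zero key
  simp only [discrim] at this
  rw [e1, e2, e3]
  linarith

lemma nat_mul_pow_pred (k : ℕ) {r : ℝ} (hr : r ≠ 0) :
    (k : ℝ) * r ^ (k - 1) = (k : ℝ) / r * r ^ k := by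
  rcases k with _ | k
  · simp
  · rw [Nat.add_sub_cancel]; field_simp; ring

/-- The one-dimensional inequality on a ray of length `R`. -/
lemma ray_core {m j : ℕ} (hj : 1 ≤ j) {h δ R : ℝ} (hh : 0 < h) (h0 : 0 < δ) (h1 : δ ≤ 1 / 4)
    (hR0 : 0 < R) {v U1 U2 f f₁ q : ℝ → ℝ} (cV : ContinuousOn v (Icc 0 R))
    (cU1 : ContinuousOn U1 (Icc 0 R)) (cU2 : ContinuousOn U2 (Icc 0 R))
    (cf : ContinuousOn f (Icc 0 R)) (cf₁ : ContinuousOn f₁ (Icc 0 R))
    (cq : ContinuousOn q (Icc 0 R)) (dV : ∀ r ∈ Icc 0 R, HasDerivAt v (-U1 r) r)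
    (dU1 : ∀ r ∈ Icc 0 R, HasDerivAt U1 (U2 r) r) (df : ∀ r ∈ Icc 0 R, HasDerivAt f (f₁ r) r)
    (hv0 : ∀ r ∈ Icc 0 R, 0 ≤ v r) (hvh : ∀ r ∈ Icc 0 R, v r ≤ h)
    (hvp : ∀ r ∈ Ico 0 R, 0 < v r) (hV : ∀ r ∈ Icc 0 R, (1 - r / R) * (h / 2) ≤ v r)
    (hU : ∀ r ∈ Ico 0 R, 0 < U2 r) (hcs : ∀ r ∈ Icc 0 R, f₁ r ^ 2 ≤ U2 r * q r)
    (hq : ∀ r ∈ Icc 0 R, 0 ≤ q r) :
    (1 - 2 * (4 ^ (m + 1 + j) * δ)) * (∫ r in 0..R, r ^ m * (v r ^ j * f r ^ 2)) ≤
      1 / (j : ℝ) * (∫ r in 0..R, r ^ m * (v r ^ (j + 1) * q r))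
        + 2 * ∫ r in 0..((1 - δ) * R), r ^ m * (v r ^ j * f r ^ 2) := by
  have hj0 : (0 : ℝ) < j := by exact_mod_cast hj
  have hδ1 : 0 < 1 - δ := by linarith
  set ρ := (1 - δ) * R with hρ
  have hρ0 : 0 < ρ := mul_pos hδ1 hR0
  have hρR : ρ < R := by rw [hρ]; nlinarith
  set W := fun r => r ^ m * v r ^ j with hW
  set φ₁ := fun r => -(m : ℝ) / r + (j : ℝ) * U1 r / v r with hφ₁
  set φ₂ := fun r => (m : ℝ) / r ^ 2 + (j : ℝ) * (U2 r * v r + U1 r ^ 2) / v r ^ 2 with hφ₂
  have cW : ContinuousOn W (Icc 0 R) := (continuousOn_pow m).mul (cV.pow j)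
  have cM : ContinuousOn (fun r => r ^ m * (v r ^ j * f r ^ 2)) (Icc 0 R) :=
    (continuousOn_pow m).mul ((cV.pow j).mul (cf.pow 2))
  have cE : ContinuousOn (fun r => r ^ m * (v r ^ (j + 1) * q r)) (Icc 0 R) :=
    (continuousOn_pow m).mul ((cV.pow (j + 1)).mul cq)
  have hwf : ∀ r ∈ Icc 0 R, W r * f r ^ 2 = r ^ m * (v r ^ j * f r ^ 2) := fun r _ => mul_assoc _ _ _
  have hW0 : ∀ r ∈ Icc 0 R, 0 ≤ W r := fun r hr =>
    mul_nonneg (pow_nonneg hr.1 _) (pow_nonneg (hv0 r hr) _)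
  have hM0 : ∀ r ∈ Icc 0 R, 0 ≤ r ^ m * (v r ^ j * f r ^ 2) := fun r hr => by
    rw [← hwf r hr]; exact mul_nonneg (hW0 r hr) (sq_nonneg _)
  have hE0 : ∀ r ∈ Icc 0 R, 0 ≤ r ^ m * (v r ^ (j + 1) * q r) := fun r hr =>
    mul_nonneg (pow_nonneg hr.1 _) (mul_nonneg (pow_nonneg (hv0 r hr) _) (hq r hr))
  set K := ∫ r in 0..ρ, r ^ m * (v r ^ j * f r ^ 2) with hK
  set E := ∫ r in 0..R, r ^ m * (v r ^ (j + 1) * q r) with hE
  set κ := 4 ^ (m + 1 + j) * δ with hκ
  have main : ∀ a b, 0 < a → a ≤ R / 4 → ρ ≤ b → b < R → R / 2 ≤ b →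
      (1 - 2 * κ) * (∫ r in a..b, r ^ m * (v r ^ j * f r ^ 2)) ≤ 1 / (j : ℝ) * E + 2 * K := by
    intro a b ha ha4 hρb hbR hb2
    have hab : a < b := by linarith
    have haρ : a ≤ ρ := by rw [hρ]; nlinarith
    have hsub : Icc a b ⊆ Icc 0 R := Icc_subset_Icc ha.le hbR.le
    have hVpos : ∀ r ∈ Icc a b, 0 < v r := fun r hr =>
      hvp r ⟨ha.le.trans hr.1, hr.2.trans_lt hbR⟩
    have hpos : ∀ r ∈ Icc a b, 0 < r := fun r hr => ha.trans_le hr.1
    have hU2pos : ∀ r ∈ Icc a b, 0 < U2 r := fun r hr =>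
      hU r ⟨ha.le.trans hr.1, hr.2.trans_lt hbR⟩
    have hφpos : ∀ r ∈ Icc a b, (j : ℝ) * U2 r / v r ≤ φ₂ r ∧ 0 < φ₂ r := by
      intro r hr
      have h2 := hVpos r hr
      have h3 := hU2pos r hr
      have h4 : φ₂ r = (j : ℝ) * U2 r / v r
          + ((m : ℝ) / r ^ 2 + (j : ℝ) * U1 r ^ 2 / v r ^ 2) := by
        simp only [hφ₂]; field_simp; ring
      have h5 : 0 ≤ (m : ℝ) / r ^ 2 + (j : ℝ) * U1 r ^ 2 / v r ^ 2 := by positivity
      have h6 : 0 < (j : ℝ) * U2 r / v r := by positivity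
      constructor <;> linarith
    have hp := poincare (w := W) (φ₁ := φ₁) (φ₂ := φ₂) (f := f) (f₁ := f₁) hab
      (fun r hr => mul_pos (pow_pos (hpos r hr) m) (pow_pos (hVpos r hr) j))
      (fun r hr => by
        have h2 := hpos r hr
        have h3 := hVpos r hr
        refine ((hasDerivAt_pow m r).fun_mul ((dV r (hsub hr)).fun_pow j)).congr_deriv ?_
        simp only [hφ₁, hW]
        rw [nat_mul_pow_pred m h2.ne', nat_mul_pow_pred j h3.ne']
        ring)
      (fun r hr => by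
        have h2 := (hpos r hr).ne'
        have h3 := (hVpos r hr).ne'
        refine (((hasDerivAt_const r (-(m : ℝ))).fun_div (hasDerivAt_id r) h2).fun_add
          (((dU1 r (hsub hr)).const_mul (j : ℝ)).fun_div (dV r (hsub hr)) h3)).congr_deriv ?_
        simp only [hφ₂, id]
        field_simp
        ring)
      (fun r hr => (hφpos r hr).2)
      (by
        refine ((continuousOn_const.div (continuousOn_pow 2) fun r hr =>
          (pow_ne_zero _ (hpos r hr).ne')).add ?_)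
        exact ((continuousOn_const.mul ((((cU2.mono hsub)).mul (cV.mono hsub)).add
          ((cU1.mono hsub).pow 2))).div ((cV.mono hsub).pow 2) fun r hr =>
            pow_ne_zero _ (hVpos r hr).ne'))
      (fun r hr => df r (hsub hr))
      (cf₁.mono hsub)
    have int : ∀ {F : ℝ → ℝ} {p q : ℝ}, ContinuousOn F (Icc 0 R) → 0 ≤ p → p ≤ q → q ≤ R →
        IntervalIntegrable F volume p q := fun hF hp hpq hq =>
      (hF.mono (Icc_subset_Icc hp hq)).intervalIntegrable_of_Icc hpq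
    have mono : ∀ {F : ℝ → ℝ} {p q : ℝ}, ContinuousOn F (Icc 0 R) → (∀ r ∈ Icc 0 R, 0 ≤ F r) →
        0 ≤ p → p ≤ q → ∀ {p' q'}, 0 ≤ p' → p' ≤ p → q ≤ q' → q' ≤ R →
        (∫ r in p..q, F r) ≤ ∫ r in p'..q', F r := by
      intro F p q hF hF0 hp hpq p' q' hp' hpp hqq hq'
      refine intervalIntegral.integral_mono_interval hpp hpq hqq ?_
        (int hF hp' (hpp.trans (hpq.trans hqq)) hq')
      exact (ae_restrict_iff' measurableSet_Ioc).2 (Eventually.of_forall fun r hr =>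
        hF0 r ⟨hp'.trans hr.1.le, hr.2.trans hq'⟩)
    -- the right-hand side
    have hA : (∫ r in a..b, W r * f₁ r ^ 2 / φ₂ r) ≤ 1 / (j : ℝ) * E := by
      refine le_trans (intervalIntegral.integral_mono_on
        (g := fun r => 1 / (j : ℝ) * (r ^ m * (v r ^ (j + 1) * q r))) hab.le ?_ ?_ ?_) ?_
      · refine ContinuousOn.intervalIntegrable_of_Icc hab.le ?_
        refine ((cW.mono hsub).mul ((cf₁.mono hsub).pow 2)).div ?_ fun r hr => (hφpos r hr).2.ne'
        refine ((continuousOn_const.div (continuousOn_pow 2) fun r hr =>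
          (pow_ne_zero _ (hpos r hr).ne')).add ?_)
        exact ((continuousOn_const.mul ((((cU2.mono hsub)).mul (cV.mono hsub)).add
          ((cU1.mono hsub).pow 2))).div ((cV.mono hsub).pow 2) fun r hr =>
            pow_ne_zero _ (hVpos r hr).ne')
      · exact (int cE ha.le hab.le hbR.le).const_mul _
      · intro r hr
        have h2 := hVpos r hr
        have h3 := hU2pos r hr
        obtain ⟨h4, h5⟩ := hφpos r hr
        have hcs := hcs r (hsub hr)
        have he0 := hq r (hsub hr)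
        calc W r * f₁ r ^ 2 / φ₂ r ≤ W r * (U2 r * q r) / ((j : ℝ) * U2 r / v r) :=
              div_le_div₀ (mul_nonneg (hW0 r (hsub hr)) (mul_nonneg h3.le he0))
                (mul_le_mul_of_nonneg_left hcs (hW0 r (hsub hr))) (by positivity) h4
          _ = 1 / (j : ℝ) * (r ^ m * (v r ^ (j + 1) * q r)) := by
              simp only [hW]; field_simp; ring
      · rw [intervalIntegral.integral_const_mul]
        exact mul_le_mul_of_nonneg_left (mono cE hE0 ha.le hab.le le_rfl ha.le hbR.le le_rfl)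
          (by positivity)
    rw [intervalIntegral.integral_congr (g := fun r => r ^ m * (v r ^ j * f r ^ 2))
      (fun r hr => hwf r (hsub (by rwa [uIcc_of_le hab.le] at hr)))] at hp
    set Φ := ∫ r in a..b, r ^ m * (v r ^ j * f r ^ 2) with hΦ
    set Z := ∫ r in a..b, W r with hZ
    have hwfc : ContinuousOn (fun r => W r * f r) (Icc 0 R) := cW.mul cf
    have hm : (∫ r in a..b, W r * f r) = (∫ r in a..ρ, W r * f r) + ∫ r in ρ..b, W r * f r :=
      (intervalIntegral.integral_add_adjacent_intervals (int hwfc ha.le haρ hρR.le)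
        (int hwfc hρ0.le hρb hbR.le)).symm
    -- the part inside
    have h2 : (∫ r in a..ρ, W r * f r) ^ 2 ≤ Z * K := by
      have hs : Icc a ρ ⊆ Icc 0 R := Icc_subset_Icc ha.le hρR.le
      refine (sq_integral_mul_le haρ (cW.mono hs) (cf.mono hs) fun r hr => hW0 r (hs hr)).trans ?_
      rw [intervalIntegral.integral_congr (g := fun r => r ^ m * (v r ^ j * f r ^ 2))
        (fun r hr => hwf r (hs (by rwa [uIcc_of_le haρ] at hr)))]
      exact mul_le_mul (mono cW hW0 ha.le haρ ha.le le_rfl hρb hbR.le)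
        (mono cM hM0 ha.le haρ le_rfl ha.le le_rfl hρR.le)
        (intervalIntegral.integral_nonneg haρ fun r hr => hM0 r (hs hr))
        (intervalIntegral.integral_nonneg hab.le fun r hr => hW0 r (hsub hr))
    -- the part outside
    have h3 : (∫ r in ρ..b, W r * f r) ^ 2 ≤ κ * Z * Φ := by
      have hs : Icc ρ b ⊆ Icc 0 R := Icc_subset_Icc hρ0.le hbR.le
      refine (sq_integral_mul_le hρb (cW.mono hs) (cf.mono hs) fun r hr => hW0 r (hs hr)).trans ?_
      rw [intervalIntegral.integral_congr (g := fun r => r ^ m * (v r ^ j * f r ^ 2))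
        (fun r hr => hwf r (hs (by rwa [uIcc_of_le hρb] at hr)))]
      have hup : (∫ r in ρ..b, W r) ≤ (R - ρ) * (R ^ m * h ^ j) := by
        refine le_trans (intervalIntegral.integral_mono_on (g := fun _ => R ^ m * h ^ j) hρb
          (int cW hρ0.le hρb hbR.le) intervalIntegrable_const fun r hr => ?_) ?_
        · have hr' := hs hr
          exact mul_le_mul (pow_le_pow_left₀ hr'.1 hr'.2 m)
            (pow_le_pow_left₀ (hv0 r hr') (hvh r hr') j)
            (pow_nonneg (hv0 r hr') _) (by positivity)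
        · rw [intervalIntegral.integral_const, smul_eq_mul]
          exact mul_le_mul_of_nonneg_right (by linarith) (by positivity)
      have hlo : R / 4 * ((R / 4) ^ m * (h / 4) ^ j) ≤ Z := by
        refine le_trans ?_ (mono cW hW0 (by linarith : 0 ≤ R / 4) (by linarith : R / 4 ≤ R / 2)
          ha.le ha4 hb2 hbR.le)
        refine le_trans (le_of_eq ?_) (intervalIntegral.integral_mono_on
          (f := fun _ => (R / 4) ^ m * (h / 4) ^ j) (by linarith : R / 4 ≤ R / 2)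
          intervalIntegrable_const (int cW (by linarith) (by linarith) (by linarith)) fun r hr => ?_)
        · rw [intervalIntegral.integral_const, smul_eq_mul]; ring
        · have hr' : r ∈ Icc 0 R := ⟨by linarith [hr.1], by linarith [hr.2]⟩
          have h5 : r / R ≤ 1 / 2 := by rw [div_le_iff₀ hR0]; linarith [hr.2]
          have h6 : h / 4 ≤ v r := le_trans (by nlinarith) (hV r hr')
          exact mul_le_mul (pow_le_pow_left₀ (by linarith) hr.1 m)
            (pow_le_pow_left₀ (by linarith) h6 j) (by positivity) (pow_nonneg hr'.1 _)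
      have h7 : (∫ r in ρ..b, W r) ≤ κ * Z := by
        refine hup.trans (le_trans (le_of_eq ?_)
          (mul_le_mul_of_nonneg_left hlo (by rw [hκ]; positivity)))
        rw [hρ, hκ, div_pow, div_pow, pow_add, pow_succ]
        field_simp
        ring
      exact mul_le_mul h7 (mono cM hM0 hρ0.le hρb ha.le haρ le_rfl hbR.le)
        (intervalIntegral.integral_nonneg hρb fun r hr => hM0 r (hs hr))
        ((intervalIntegral.integral_nonneg hρb fun r hr => hW0 r (hs hr)).trans h7)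
    have hZ0 : 0 < Z := intervalIntegral.intervalIntegral_pos_of_pos_on (int cW ha.le hab.le hbR.le)
      (fun r hr => mul_pos (pow_pos (hpos r (Ioo_subset_Icc_self hr)) m)
        (pow_pos (hVpos r (Ioo_subset_Icc_self hr)) j)) hab
    have h4 : (∫ r in a..b, W r * f r) ^ 2 / Z ≤ 2 * K + 2 * κ * Φ := by
      rw [div_le_iff₀ hZ0, hm]
      have := two_mul_le_add_sq (∫ r in a..ρ, W r * f r) (∫ r in ρ..b, W r * f r)
      calc _ ≤ 2 * (∫ r in a..ρ, W r * f r) ^ 2 + 2 * (∫ r in ρ..b, W r * f r) ^ 2 := by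
            rw [add_sq]; linarith
        _ ≤ 2 * (Z * K) + 2 * (κ * Z * Φ) := by linarith
        _ = _ := by ring
    linarith
  -- the limit
  have hprim : ContinuousOn (fun t => ∫ r in 0..t, r ^ m * (v r ^ j * f r ^ 2)) (Icc 0 R) := by
    have := intervalIntegral.continuousOn_primitive_interval (μ := volume) (a := (0 : ℝ)) (b := R)
      (f := fun r => r ^ m * (v r ^ j * f r ^ 2)) (by rw [uIcc_of_le hR0.le]; exact cM.integrableOn_Icc)
    rwa [uIcc_of_le hR0.le] at this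
  have heps : Tendsto (fun n : ℕ => δ * (1 / ((n : ℝ) + 1))) atTop (𝓝 0) := by
    simpa using (tendsto_one_div_add_atTop_nhds_zero_nat (𝕜 := ℝ)).const_mul δ
  have heb : ∀ n : ℕ, 0 < δ * (1 / ((n : ℝ) + 1)) ∧ δ * (1 / ((n : ℝ) + 1)) ≤ δ := fun n =>
    ⟨by positivity, mul_le_of_le_one_right h0.le
      ((div_le_one (by positivity)).2 (le_add_of_nonneg_left n.cast_nonneg))⟩
  have ta : Tendsto (fun n : ℕ => ∫ r in 0..(δ * (1 / ((n : ℝ) + 1)) * R), r ^ m * (v r ^ j * f r ^ 2))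
      atTop (𝓝 0) := by
    have := ((hprim 0 (left_mem_Icc.2 hR0.le)).tendsto.comp (tendsto_nhdsWithin_iff.2
      ⟨by simpa using heps.mul_const R, Eventually.of_forall fun n => ⟨mul_nonneg (heb n).1.le hR0.le,
        mul_le_of_le_one_left hR0.le ((heb n).2.trans (by linarith))⟩⟩))
    simpa [Function.comp_def] using this
  have tb : Tendsto (fun n : ℕ => ∫ r in 0..((1 - δ * (1 / ((n : ℝ) + 1))) * R), r ^ m * (v r ^ j * f r ^ 2))
      atTop (𝓝 (∫ r in 0..R, r ^ m * (v r ^ j * f r ^ 2))) :=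
    (hprim R (right_mem_Icc.2 hR0.le)).tendsto.comp (tendsto_nhdsWithin_iff.2
      ⟨by simpa using ((tendsto_const_nhds (x := (1 : ℝ))).sub heps).mul_const R,
        Eventually.of_forall fun n =>
          ⟨mul_nonneg (by linarith [(heb n).2]) hR0.le,
           mul_le_of_le_one_left hR0.le (by linarith [(heb n).1])⟩⟩)
  have hlim := (tb.sub ta).const_mul (1 - 2 * κ)
  rw [sub_zero] at hlim
  refine le_of_tendsto hlim (Eventually.of_forall fun n => ?_)
  obtain ⟨e0, e1⟩ := heb n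
  set t := δ * (1 / ((n : ℝ) + 1))
  have hab' : t * R ≤ (1 - t) * R := mul_le_mul_of_nonneg_right (by linarith) hR0.le
  rw [intervalIntegral.integral_interval_sub_left
    ((cM.mono (Icc_subset_Icc le_rfl (mul_le_of_le_one_left hR0.le (by linarith)))
      ).intervalIntegrable_of_Icc (mul_nonneg (by linarith) hR0.le))
    ((cM.mono (Icc_subset_Icc le_rfl (mul_le_of_le_one_left hR0.le (by linarith)))
      ).intervalIntegrable_of_Icc (mul_nonneg e0.le hR0.le))]
  refine main _ _ (mul_pos e0 hR0) ?_ ?_ ?_ ?_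
  · linarith [mul_le_mul_of_nonneg_right (show t ≤ 1 / 4 by linarith) hR0.le]
  · exact mul_le_mul_of_nonneg_right (by linarith) hR0.le
  · exact mul_lt_of_lt_one_left hR0 (by linarith)
  · linarith [mul_le_mul_of_nonneg_right (show (1 / 2 : ℝ) ≤ 1 - t by linarith) hR0.le]

/-- The inequality along one ray. -/
lemma ray_le {m : ℕ} (P : Sol (m + 1)) {j : ℕ} (hj : 1 ≤ j) (e : ℕ) (θ : ℝ) {h : ℝ} (hh : 0 < h)
    {c : V (m + 1)} (hc : c ∈ P.sec h) (huc : P.u c ≤ h / 2) {δ : ℝ}
    (h0 : 0 < δ) (h1 : δ ≤ 1 / 4) (z : Sph m) :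
    (1 - 2 * (4 ^ (m + 1 + j) * δ)) * ray c ((P.csec h).indicator (mass P (j + 2 * e) θ h)) z ≤
      1 / (j : ℝ) * ray c ((P.csec h).indicator (energy P j e θ h)) z
        + 2 * ray c ((P.inner h c δ).indicator (mass P (j + 2 * e) θ h)) z := by
  set M := j + 2 * e with hMdef
  have hj0 : (0 : ℝ) < j := by exact_mod_cast hj
  set d : V (m + 1) := (z : V (m + 1)) with hd
  have hdn : ‖d‖ = 1 := norm_eq_of_mem_sphere z
  set γ := fun r : ℝ => c + r • d with hγ
  have hγc : Continuous γ := by fun_prop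
  have hγ' : ∀ r, HasDerivAt γ d r := fun r =>
    (((hasDerivAt_id r).smul_const d).const_add c).congr_deriv (one_smul ℝ d)
  set T := {r : ℝ | 0 ≤ r ∧ γ r ∈ P.csec h} with hT
  have hTc : IsClosed T := isClosed_Ici.inter ((P.isCompact_csec h).isClosed.preimage hγc)
  obtain ⟨C, hC⟩ := (P.isCompact_csec h).isBounded.subset_closedBall c
  have hTb : T ⊆ Icc 0 C := fun r hr => by
    refine ⟨hr.1, ?_⟩
    have := hC hr.2
    rw [mem_closedBall, dist_eq_norm] at this
    simpa [hγ, norm_smul, hdn, abs_of_nonneg hr.1] using this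
  have hTcpt : IsCompact T := isCompact_Icc.of_isClosed_subset hTc hTb
  have h0T : (0 : ℝ) ∈ T := ⟨le_rfl, by simpa [hγ] using P.sec_subset_csec h hc⟩
  set R := sSup T with hR
  have hRT : R ∈ T := hTcpt.sSup_mem ⟨0, h0T⟩
  have hle : ∀ r, 0 ≤ r → γ r ∈ P.csec h → r ≤ R := fun r hr hr' =>
    le_csSup hTcpt.bddAbove ⟨hr, hr'⟩
  have hR0 : 0 < R := by
    obtain ⟨e, he, hball⟩ := Metric.isOpen_iff.1 (P.isOpen_sec h) c hc
    refine lt_of_lt_of_le (half_pos he) (hle _ (by linarith) (P.sec_subset_csec h (hball ?_)))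
    rw [mem_ball, dist_eq_norm]
    rw [hγ]
    simp only [add_sub_cancel_left, norm_smul, hdn, mul_one, Real.norm_eq_abs,
      abs_of_pos (half_pos he)]
    linarith
  have hcomb : ∀ r ∈ Icc 0 R, γ r ∈ P.Ω ∧ P.u (γ r) ≤ (1 - r / R) * P.u c + r / R * h := by
    intro r hr
    have e : γ r = (1 - r / R) • c + (r / R) • γ R := by
      simp only [hγ, smul_add, smul_smul, div_mul_cancel₀ _ hR0.ne', ← add_assoc, ← add_smul,
        sub_add_cancel, one_smul]
    have ha : 0 ≤ 1 - r / R := by rw [sub_nonneg, div_le_one hR0]; exact hr.2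
    have hb : 0 ≤ r / R := div_nonneg hr.1 hR0.le
    rw [e]
    exact ⟨P.convex hc.1 hRT.2.1 ha hb (by ring),
      (convex_comb_le P.adm hc.1 hRT.2.1 ha hb (by ring)).trans
        (add_le_add le_rfl (mul_le_mul_of_nonneg_left hRT.2.2 hb))⟩
  have hmem : ∀ r ∈ Icc 0 R, γ r ∈ P.csec h := fun r hr => by
    obtain ⟨h2, h3⟩ := hcomb r hr
    refine ⟨h2, h3.trans ?_⟩
    have := mul_le_mul_of_nonneg_left hc.2.le (sub_nonneg.2 ((div_le_one hR0).2 hr.2))
    linarith
  have hsec : ∀ r ∈ Ico 0 R, γ r ∈ P.sec h := fun r hr => by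
    obtain ⟨h2, h3⟩ := hcomb r (Ico_subset_Icc_self hr)
    refine ⟨h2, h3.trans_lt ?_⟩
    have := mul_lt_mul_of_pos_left hc.2 (sub_pos.2 ((div_lt_one hR0).2 hr.2))
    linarith
  have hV : ∀ r ∈ Icc 0 R, (1 - r / R) * (h / 2) ≤ P.cut h (γ r) := fun r hr => by
    obtain ⟨-, h3⟩ := hcomb r hr
    have := mul_le_mul_of_nonneg_left huc (sub_nonneg.2 ((div_le_one hR0).2 hr.2))
    simp only [Sol.cut]; linarith
  have hmaps : MapsTo γ (Icc 0 R) P.Ω := fun r hr => (hmem r hr).1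
  -- the three integrals
  have rayeq : ∀ (G : V (m + 1) → ℝ) (A : Set (V (m + 1))) (ρ : ℝ), 0 ≤ ρ →
      (∀ r, 0 < r → r < ρ → γ r ∈ A) → (∀ r, ρ < r → γ r ∉ A) →
      ray c (A.indicator G) z = ∫ r in 0..ρ, r ^ m * G (γ r) := by
    intro G A ρ hρ hin hout
    have e : ∀ᵐ r : ℝ, r ∈ Ioi (0 : ℝ) →
        r ^ m * A.indicator G (γ r) = (Ioc 0 ρ).indicator (fun r => r ^ m * G (γ r)) r := by
      filter_upwards [Measure.ae_ne volume ρ] with r hr hr0
      rcases lt_or_gt_of_ne hr with hl | hl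
      · rw [Set.indicator_of_mem (hin r hr0 hl) G,
          Set.indicator_of_mem (show r ∈ Ioc 0 ρ from ⟨hr0, hl.le⟩) (fun r => r ^ m * G (γ r))]
      · rw [Set.indicator_of_notMem (hout r hl),
          Set.indicator_of_notMem (fun h' : r ∈ Ioc 0 ρ => absurd h'.2 (not_le.2 hl)), mul_zero]
    rw [ray, setIntegral_congr_ae measurableSet_Ioi e, setIntegral_indicator measurableSet_Ioc,
      Set.inter_eq_right.2 Set.Ioc_subset_Ioi_self, intervalIntegral.integral_of_le hρ]
  have hout : ∀ r, R < r → γ r ∉ P.csec h := fun r hr hr' =>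
    absurd (hle r (hR0.le.trans hr.le) hr') (not_le.2 hr)
  have hδ1 : 0 < 1 - δ := by linarith
  set ρ := (1 - δ) * R with hρ
  have hρ0 : 0 < ρ := mul_pos hδ1 hR0
  have hρR : ρ < R := by rw [hρ]; nlinarith
  have hinner : ∀ r, γ r ∈ P.inner h c δ ↔ γ ((1 - δ)⁻¹ * r) ∈ P.sec h := fun r => by
    simp [Sol.inner, hγ, smul_smul]
  rw [rayeq (mass P M θ h) _ R hR0.le (fun r h2 h3 => hmem r ⟨h2.le, h3.le⟩) hout,
    rayeq (energy P j e θ h) _ R hR0.le (fun r h2 h3 => hmem r ⟨h2.le, h3.le⟩) hout,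
    rayeq (mass P M θ h) _ ρ hρ0.le
      (fun r h2 h3 => by
        rw [hinner]
        refine hsec _ ⟨mul_nonneg (inv_nonneg.2 hδ1.le) h2.le, ?_⟩
        rw [inv_mul_lt_iff₀ hδ1]; exact h3)
      (fun r h3 h' => by
        rw [hinner] at h'
        refine hout _ ?_ (P.sec_subset_csec h h')
        rw [lt_inv_mul_iff₀ hδ1]; exact h3)]
  have hsm := P.smooth
  have hd1 : ContDiffOn ℝ (↑(⊤ : ℕ∞)) (fderiv ℝ P.u) P.Ω := hsm.fderiv_of_isOpen P.isOpen le_rfl
  have ct : ContDiffOn ℝ (↑(⊤ : ℕ∞)) (tst P e θ h) P.Ω := contDiffOn_tst P e θ h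
  have eM : ∀ t ≤ R, 0 ≤ t → (∫ r in 0..t, r ^ m * mass P M θ h (γ r))
      = ∫ r in 0..t, r ^ m * (P.cut h (γ r) ^ j * tst P e θ h (γ r) ^ 2) := fun t ht ht0 => by
    refine intervalIntegral.integral_congr fun r hr => ?_
    rw [uIcc_of_le ht0] at hr
    have hh2 : dp P (θ / 2) (γ r) ^ 2 = dp P θ (γ r) := by
      rw [sq, dp, dp, ← Real.rpow_add (P.dt_pos (hmaps ⟨hr.1, hr.2.trans ht⟩))]; congr 1; ring
    simp only [tst, mass, mul_pow, hh2, hMdef, pow_add]; ring
  rw [eM R le_rfl hR0.le, eM ρ hρR.le hρ0.le]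
  refine ray_core (v := fun r => P.cut h (γ r)) (U1 := fun r => fderiv ℝ P.u (γ r) d)
    (U2 := fun r => fderiv ℝ (fderiv ℝ P.u) (γ r) d d) (f := fun r => tst P e θ h (γ r))
    (f₁ := fun r => fderiv ℝ (tst P e θ h) (γ r) d)
    (q := fun r => cdot P (fun i => pd (tst P e θ h) i) (fun i => pd (tst P e θ h) i) (γ r)
      / dt P.u (γ r)) hj hh h0 h1 hR0 ?_ ?_ ?_ ?_ ?_ ?_ ?_ ?_ ?_ ?_ ?_ ?_ hV ?_ ?_ ?_
  · exact (P.continuousOn_cut h).comp hγc.continuousOn hmaps
  · exact ((hsm.continuousOn_fderiv_of_isOpen P.isOpen (by norm_num)).comp hγc.continuousOn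
      hmaps).clm_apply continuousOn_const
  · exact (((hd1.continuousOn_fderiv_of_isOpen P.isOpen (by norm_num)).comp hγc.continuousOn
      hmaps).clm_apply continuousOn_const).clm_apply continuousOn_const
  · exact ct.continuousOn.comp hγc.continuousOn hmaps
  · exact ((ct.continuousOn_fderiv_of_isOpen P.isOpen (by norm_num)).comp hγc.continuousOn
      hmaps).clm_apply continuousOn_const
  · exact (((continuousOn_cdot P (fun i => (contDiffOn_pd P.isOpen ct i).continuousOn)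
      fun i => (contDiffOn_pd P.isOpen ct i).continuousOn).div P.contDiffOn_dt.continuousOn
      fun _ hx => (P.dt_pos hx).ne')).comp hγc.continuousOn hmaps
  · exact fun r hr => ((diffAt P hsm (hmaps hr)).hasFDerivAt.comp_hasDerivAt r (hγ' r)).const_sub h
  · intro r hr
    have hdd : DifferentiableAt ℝ (fderiv ℝ P.u) (γ r) :=
      ((hd1.differentiableOn (by norm_num)) _ (hmaps hr)).differentiableAt
        (P.isOpen.mem_nhds (hmaps hr))
    have := (hdd.hasFDerivAt.comp_hasDerivAt r (hγ' r)).clm_apply (hasDerivAt_const r d)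
    simpa [Function.comp_def] using this
  · exact fun r hr => (diffAt P ct (hmaps hr)).hasFDerivAt.comp_hasDerivAt r (hγ' r)
  · exact fun r hr => sub_nonneg.2 (hmem r hr).2
  · exact fun r hr => sub_le_self _ (P.nonneg (hmaps hr))
  · exact fun r hr => sub_pos.2 (hsec r hr).2
  · exact fun r hr => P252B.second_deriv_pos P.adm (hmaps (Ico_subset_Icc_self hr)) fun h' => by
      rw [h', norm_zero] at hdn; exact one_ne_zero hdn.symm
  · exact fun r hr => sq_apply_le P (hmaps hr) _ d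
  · exact fun r hr => div_nonneg (cdot_self_nonneg P (hmaps hr) _) (P.dt_pos (hmaps hr)).le

/-- The algebraic condition under which the radial step closes. -/
def MassCond (n M e : ℕ) (θ : ℝ) : Prop :=
  2 * e < M ∧ 0 < gap n θ ∧ θ ≤ 1 ∧ lam n (M - 2 * e) e θ < ((M - 2 * e : ℕ) : ℝ)

/-- The radial half of the mass bound. -/
theorem radial {n M e : ℕ} {θ : ℝ} (hn : 1 ≤ n) (hM : 2 ≤ M) (hC : MassCond n M e θ) :
    ∃ N δ : ℝ, 0 ≤ N ∧ 0 < δ ∧ δ < 1 ∧ ∀ (P : Sol n) (h : ℝ), 0 < h → ∀ c ∈ P.sec h,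
      P.u c ≤ h / 2 → (∫ x in P.sec h, P.cut h x ^ M * dt P.u x ^ θ) ≤
        N * ∫ x in P.inner h c δ, P.cut h x ^ M * dt P.u x ^ θ := by
  obtain ⟨he, hg, hθ, hlt⟩ := hC
  obtain ⟨m, rfl⟩ : ∃ m, n = m + 1 := ⟨n - 1, by omega⟩
  obtain ⟨j, hj, rfl⟩ : ∃ j, 1 ≤ j ∧ M = j + 2 * e := ⟨M - 2 * e, by omega, by omega⟩
  rw [Nat.add_sub_cancel] at hlt
  have hj0 : (0 : ℝ) < j := by exact_mod_cast hj
  set η := lam (m + 1) j e θ / j with hη
  have hη1 : η < 1 := by rw [hη, div_lt_one hj0]; exact hlt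
  set δ := min (1 / 4) ((1 - η) / (8 * 4 ^ (m + 1 + j))) with hδ
  have h0 : 0 < δ := lt_min (by norm_num) (div_pos (by linarith) (by positivity))
  have h1 : δ ≤ 1 / 4 := min_le_left _ _
  have hk : 2 * (4 ^ (m + 1 + j) * δ) ≤ (1 - η) / 4 := by
    have := min_le_right (1 / 4) ((1 - η) / (8 * 4 ^ (m + 1 + j)))
    rw [← hδ, le_div_iff₀ (by positivity)] at this
    linarith
  refine ⟨4 / (1 - η), δ, div_nonneg (by norm_num) (by linarith), h0, by linarith, ?_⟩
  intro P h hh c hc huc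
  clear_value δ
  set M := j + 2 * e with hMdef
  have hms := (P.isCompact_csec h).measurableSet
  have hsub : P.inner h c δ ⊆ P.csec h :=
    (P.inner_subset hc h0 (by linarith [h1] : δ < 1)).trans (P.sec_subset_csec h)
  have i1 : IntegrableOn (mass P M θ h) (P.csec h) :=
    integrableOn_csec P (continuousOn_mass P M θ h) h
  have i2 : IntegrableOn (energy P j e θ h) (P.csec h) :=
    integrableOn_csec P (continuousOn_energy P j e θ h) h
  obtain ⟨r1, e1⟩ := polar c ((integrable_indicator_iff hms).2 i1)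
  obtain ⟨r2, e2⟩ := polar c ((integrable_indicator_iff hms).2 i2)
  obtain ⟨r3, e3⟩ := polar c
    ((integrable_indicator_iff (P.isOpen_inner h c δ).measurableSet).2 (i1.mono_set hsub))
  rw [integral_indicator hms] at e1 e2
  rw [integral_indicator (P.isOpen_inner h c δ).measurableSet] at e3
  have hb := integral_mono (μ := sph m) (r1.const_mul (1 - 2 * (4 ^ (m + 1 + j) * δ)))
    ((r2.const_mul (1 / (j : ℝ))).add (r3.const_mul 2))
    (fun z => ray_le P hj e θ hh hc huc h0 h1 z)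
  simp only [Pi.add_apply] at hb
  rw [integral_add (r2.const_mul _) (r3.const_mul _), integral_const_mul, integral_const_mul,
    integral_const_mul, e1, e2, e3] at hb
  have hen : (∫ x in P.csec h, energy P j e θ h x) ≤
      lam (m + 1) j e θ * ∫ x in P.csec h, mass P M θ h x := energy_le P hj hM hg hθ h
  have hen' : 1 / (j : ℝ) * (∫ x in P.csec h, energy P j e θ h x) ≤
      η * ∫ x in P.csec h, mass P M θ h x := by
    refine (mul_le_mul_of_nonneg_left hen (by positivity)).trans (le_of_eq ?_)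
    rw [hη]; ring
  have hdiff : ∀ x ∈ P.csec h \ P.sec h, mass P M θ h x = 0 := fun x hx => by
    have : P.u x = h := le_antisymm hx.1.2 (not_lt.1 fun h' => hx.2 ⟨hx.1.1, h'⟩)
    simp [mass, Sol.cut, this, zero_pow (show M ≠ 0 by omega)]
  have hsec : (∫ x in P.sec h, mass P M θ h x) = ∫ x in P.csec h, mass P M θ h x :=
    (setIntegral_eq_of_subset_of_forall_sdiff_eq_zero hms (P.sec_subset_csec h) hdiff).symm
  have hI : 0 ≤ ∫ x in P.inner h c δ, mass P M θ h x :=
    setIntegral_nonneg (P.isOpen_inner h c δ).measurableSet fun x hx =>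
      mul_nonneg (pow_nonneg (sub_nonneg.2 (hsub hx).2) _) (dp_pos P θ (hsub hx).1).le
  have hJ : 0 ≤ ∫ x in P.csec h, mass P M θ h x := setIntegral_nonneg hms fun x hx =>
    mul_nonneg (pow_nonneg (sub_nonneg.2 hx.2) _) (dp_pos P θ hx.1).le
  show (∫ x in P.sec h, mass P M θ h x) ≤ 4 / (1 - η) * ∫ x in P.inner h c δ, mass P M θ h x
  rw [hsec, div_mul_eq_mul_div, le_div_iff₀ (by linarith)]
  have hk' := mul_le_mul_of_nonneg_right hk hJ
  linarith

end Vale.Agent.P252MN
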